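import Vale.Agent.P199.Recip.Main

/-!
# Reciprocity at a height-two prime of a normal domain
-/

namespace Vale.Agent.P199.Recip

open IsLocalRing

variable {R : Type*} [CommRing R] [IsLocalRing R] [IsDomain R] [IsNoetherianRing R]

omit [IsNoetherianRing R] in
theorem twoDim_of_height (h : (maximalIdeal R).height ≤ 2) : TwoDim R := by
  refine ⟨fun p q hp hq hp0 hpq => ?_⟩
  by_contra hne
  have hqm : q < maximalIdeal R := lt_of_le_of_ne (le_maximalIdeal hq.ne_top) hne
  have h0 : (⊥ : Ideal R) < p := bot_lt_iff_ne_bot.mpr hp0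
  have := Ideal.isPrime_bot (α := R)
  have h1 := Ideal.height_add_one_le_of_lt_of_isPrime h0
  have h2 := Ideal.height_add_one_le_of_lt_of_isPrime hpq
  have h3 := Ideal.height_add_one_le_of_lt_of_isPrime hqm
  have h4 : (3 : ℕ∞) ≤ (maximalIdeal R).height :=
    calc (3 : ℕ∞) = 0 + 1 + 1 + 1 := by norm_num
      _ ≤ (⊥ : Ideal R).height + 1 + 1 + 1 := by gcongr; exact zero_le
      _ ≤ p.height + 1 + 1 := by gcongr
      _ ≤ q.height + 1 := by gcongr
      _ ≤ (maximalIdeal R).height := h3
  exact absurd (h4.trans h) (by decide)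

theorem dvr_of_normal [IsIntegrallyClosed R] [TwoDim R] (C : Curve R) :
    IsDiscreteValuationRing C.loc := by
  have hle : C.I.primeCompl ≤ nonZeroDivisors R := C.I.primeCompl_le_nonZeroDivisors
  have : IsIntegrallyClosed C.loc := isIntegrallyClosed_of_isLocalization C.loc C.I.primeCompl hle
  have hnf : ¬ IsField C.loc :=
    IsLocalization.AtPrime.not_isField R C.ne_bot C.loc
  suffices h : IsIntegrallyClosed C.loc ∧ ∃! P : Ideal C.loc, P ≠ ⊥ ∧ P.IsPrime by
    exact ((IsDiscreteValuationRing.TFAE C.loc hnf).out 0 3 (a := IsDiscreteValuationRing C.loc)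
      (b := IsIntegrallyClosed C.loc ∧ ∃! P : Ideal C.loc, P ≠ ⊥ ∧ P.IsPrime) rfl rfl).mpr h
  refine ⟨inferInstance, ?_⟩
  refine ⟨maximalIdeal C.loc, ⟨fun h => hnf (IsLocalRing.isField_iff_maximalIdeal_eq.mpr h),
    inferInstance⟩, ?_⟩
  rintro P ⟨hP0, hP⟩
  have hcomap : P.comap (algebraMap R C.loc) = C.I := by
    have hle' : P.comap (algebraMap R C.loc) ≤ C.I := by
      intro x hx
      by_contra hxC
      exact hP.ne_top (Ideal.eq_top_of_isUnit_mem _ hx
        (IsLocalization.map_units (M := C.I.primeCompl) C.loc ⟨x, hxC⟩))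
    have hne : P.comap (algebraMap R C.loc) ≠ ⊥ := by
      intro h
      apply hP0
      rw [← IsLocalization.map_under C.I.primeCompl C.loc P]
      show Ideal.map _ (P.comap (algebraMap R C.loc)) = ⊥
      rw [h, Ideal.map_bot]
    exact congrArg Curve.I (Curve.eq_of_le (C := ⟨_, Ideal.IsPrime.comap _, hne, fun h => C.ne_max
      (le_antisymm (le_maximalIdeal C.prime.ne_top) (h ▸ hle'))⟩) hle')
  rw [← IsLocalization.map_under C.I.primeCompl C.loc P]
  show Ideal.map _ (P.comap (algebraMap R C.loc)) = _
  rw [hcomap, Localization.AtPrime.map_eq_maximalIdeal]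

/-- Reciprocity for a normal local domain of dimension at most two. -/
theorem sig_eq_zero_of_normal [IsIntegrallyClosed R] (h : (maximalIdeal R).height ≤ 2)
    {f g : R} (hf : f ≠ 0) (hg : g ≠ 0) :
    have := twoDim_of_height h
    have := dvr_of_normal (R := R)
    sig f g = 0 := by
  intro _ _
  exact sig_eq_zero hf hg

theorem twoDim_localization {S : Type*} [CommRing S] [IsDomain S] (P : Ideal S) [P.IsPrime]
    (hP : P.height ≤ 2) : TwoDim (Localization.AtPrime P) :=
  twoDim_of_height (by
    have h := (IsLocalRing.maximalIdeal_height_eq_ringKrullDim (R := Localization.AtPrime P)).trans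
      (IsLocalization.AtPrime.ringKrullDim_eq_height P (Localization.AtPrime P))
    rw [WithBot.coe_inj.mp h]
    exact hP)

/-- Reciprocity at a prime of height at most two of a normal Noetherian domain. -/
theorem sig_localization_eq_zero {S : Type*} [CommRing S] [IsDomain S] [IsNoetherianRing S]
    [IsIntegrallyClosed S] (P : Ideal S) [P.IsPrime] (hP : P.height ≤ 2)
    {f g : S} (hf : f ≠ 0) (hg : g ≠ 0) :
    have := twoDim_localization P hP
    have : ∀ C : Curve (Localization.AtPrime P), IsDiscreteValuationRing C.loc :=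
      have := isIntegrallyClosed_of_isLocalization (Localization.AtPrime P) P.primeCompl
        P.primeCompl_le_nonZeroDivisors
      dvr_of_normal
    sig (algebraMap S (Localization.AtPrime P) f) (algebraMap S (Localization.AtPrime P) g) = 0 := by
  intro _ _
  exact sig_eq_zero
    (fun h => hf (IsLocalization.injective _ P.primeCompl_le_nonZeroDivisors (by rw [h, map_zero])))
    (fun h => hg (IsLocalization.injective _ P.primeCompl_le_nonZeroDivisors (by rw [h, map_zero])))

end Vale.Agent.P199.Recip
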