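import Vale.Agent.P199.Recip.Basic

/-!
# The associativity formula and the coprime case of reciprocity
-/

namespace Vale.Agent.P199.Recip

open IsLocalRing LinearMap

variable {R : Type*} [CommRing R] [IsLocalRing R]

omit [IsLocalRing R] in
theorem tLen_le {N M Q : Type*} [AddCommGroup N] [Module R N] [AddCommGroup M] [Module R M]
    [AddCommGroup Q] [Module R Q] (i : N →ₗ[R] M) (p : M →ₗ[R] Q) (hi : Function.Injective i)
    (hip : Function.Exact i p) (g : R) :
    tLen g M ≤ tLen g N + tLen g Q := by
  let tp : ker (lsmul R M g) →ₗ[R] ker (lsmul R Q g) :=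
    p.restrict (fun n hn => by
      simp only [mem_ker, lsmul_apply] at hn ⊢
      rw [← map_smul, hn, map_zero])
  unfold tLen
  rw [length_ker_add_range tp]
  refine add_le_add ?_ ?_
  · -- the kernel is inside the image of the torsion of `N`
    let φ : ker tp →ₗ[R] range i := ((ker (lsmul R M g)).subtype.comp (ker tp).subtype).codRestrict
      (range i) (fun x => (hip _).mp (congrArg Subtype.val x.2))
    let ψ : ker tp →ₗ[R] ker (lsmul R N g) :=
      ((LinearEquiv.ofInjective i hi).symm.toLinearMap.comp φ).codRestrict _ (fun x => by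
        rw [mem_ker, lsmul_apply, comp_apply]
        apply hi
        rw [map_smul, map_zero]
        have h := congrArg Subtype.val ((LinearEquiv.ofInjective i hi).apply_symm_apply (φ x))
        rw [LinearEquiv.ofInjective_apply] at h
        rw [LinearEquiv.coe_coe, h]
        exact x.1.2)
    refine Module.length_le_of_injective ψ ?_
    intro x y h
    have h' := (LinearEquiv.ofInjective i hi).symm.injective (congrArg Subtype.val h)
    exact Subtype.ext (Subtype.ext (congrArg Subtype.val h' :))
  · exact Module.length_le_of_injective (range tp).subtype (range tp).injective_subtype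

/-- Length of the localisation at a curve. -/
noncomputable def lC (C : Curve R) (M : Type*) [AddCommGroup M] [Module R M] : ℕ∞ :=
  Module.length C.loc (LocalizedModule C.I.primeCompl M)

theorem lC_add (C : Curve R) {N M Q : Type*} [AddCommGroup N] [Module R N] [AddCommGroup M]
    [Module R M] [AddCommGroup Q] [Module R Q] (i : N →ₗ[R] M) (p : M →ₗ[R] Q)
    (hi : Function.Injective i) (hp : Function.Surjective p) (hip : Function.Exact i p) :
    lC C M = lC C N + lC C Q :=
  Module.length_eq_add_of_exact (LocalizedModule.map C.I.primeCompl i)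
    (LocalizedModule.map C.I.primeCompl p) (LocalizedModule.map_injective _ i hi)
    (LocalizedModule.map_surjective _ p hp) (LocalizedModule.map_exact _ i p hip)

theorem lC_zero (C : Curve R) (M : Type*) [AddCommGroup M] [Module R M]
    (h : ∀ m : M, ∃ t ∉ C.I, t • m = 0) : lC C M = 0 := by
  rw [lC, Module.length_eq_zero_iff, LocalizedModule.subsingleton_iff]
  exact fun m => h m

theorem lC_congr (C : Curve R) {M N : Type*} [AddCommGroup M] [Module R M] [AddCommGroup N]
    [Module R N] (e : M ≃ₗ[R] N) : lC C M = lC C N := by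
  have hs : Subsingleton PUnit := inferInstance
  rw [lC_add C e.toLinearMap (0 : N →ₗ[R] PUnit) e.injective
    (Function.surjective_to_subsingleton _) ((e.exact_zero_iff_surjective _).2 e.surjective),
    lC_zero C PUnit (fun m => ⟨1, fun h => C.prime.ne_top ((Ideal.eq_top_iff_one _).mpr h),
      Subsingleton.elim _ _⟩), add_zero]

theorem lC_quot (C : Curve R) (J : Ideal R) :
    lC C (R ⧸ J) = Module.length C.loc (C.loc ⧸ J.map (algebraMap R C.loc)) := by
  have := IsLocalizedModule.toLocalizedQuotient' C.loc C.I.primeCompl (Algebra.linearMap R C.loc) J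
  have e : LocalizedModule C.I.primeCompl (R ⧸ J) ≃ₗ[R]
      C.loc ⧸ Submodule.localized' C.loc C.I.primeCompl (Algebra.linearMap R C.loc) J :=
    IsLocalizedModule.linearEquiv C.I.primeCompl
      (LocalizedModule.mkLinearMap C.I.primeCompl (R ⧸ J))
      (Submodule.toLocalizedQuotient' C.loc C.I.primeCompl (Algebra.linearMap R C.loc) J)
  unfold lC
  rw [(e.extendScalarsOfIsLocalization C.I.primeCompl C.loc).length_eq,
    Ideal.localized'_eq_map]

variable [IsDomain R] [IsNoetherianRing R] [TwoDim R]
  [hD : ∀ C : Curve R, IsDiscreteValuationRing C.loc]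

omit [IsNoetherianRing R] [TwoDim R] in
theorem lC_span (C : Curve R) {f : R} (hf : f ≠ 0) :
    lC C (R ⧸ Ideal.span {f}) = (ordC C f : ℕ∞) := by
  rw [lC_quot, Ideal.map_span, Set.image_singleton, ordC_coe C hf,
    ← Ring.ord_eq_addVal]
  rfl

omit hD [IsNoetherianRing R] [TwoDim R] [IsDomain R] in
theorem lC_self (C : Curve R) : lC C (R ⧸ C.I) = 1 := by
  rw [lC_quot, Localization.AtPrime.map_eq_maximalIdeal, Module.length_eq_one_iff,
    isSimpleModule_iff_isSimpleModule_of_algebraMap_surjective
      (S := C.loc ⧸ maximalIdeal C.loc) Ideal.Quotient.mk_surjective]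
  let := Ideal.Quotient.field (maximalIdeal C.loc)
  exact instIsSimpleModule _

omit [IsLocalRing R] [IsDomain R] [IsNoetherianRing R] [TwoDim R] hD in
theorem cLen_quot (g : R) (J : Ideal R) :
    cLen g (R ⧸ J) = Ring.ord (R ⧸ J) (Ideal.Quotient.mk J g) := by
  have hr : range (lsmul R (R ⧸ J) g)
      = (Ideal.span {Ideal.Quotient.mk J g}).restrictScalars R := by
    ext x
    rw [Submodule.restrictScalars_mem, Ideal.mem_span_singleton', mem_range]
    constructor
    · rintro ⟨y, rfl⟩
      exact ⟨y, by rw [lsmul_apply, Algebra.smul_def, mul_comm]; rfl⟩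
    · rintro ⟨y, rfl⟩
      exact ⟨y, by rw [lsmul_apply, Algebra.smul_def, mul_comm]; rfl⟩
  unfold cLen Ring.ord
  rw [(Submodule.quotEquivOfEq _ _ hr).length_eq,
    (Submodule.Quotient.restrictScalarsEquiv R _).length_eq]
  exact Module.length_eq_of_surjective Ideal.Quotient.mk_surjective

omit [IsLocalRing R] [IsDomain R] [IsNoetherianRing R] [TwoDim R] hD in
theorem tLen_quot_eq_zero (g : R) (J : Ideal R) [J.IsPrime] (hg : g ∉ J) :
    tLen g (R ⧸ J) = 0 := by
  rw [tLen, Module.length_eq_zero_iff, Submodule.subsingleton_iff_eq_bot, ker_eq_bot']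
  intro x hx
  obtain ⟨y, rfl⟩ := Ideal.Quotient.mk_surjective x
  have : g * y ∈ J := by
    rw [← Ideal.Quotient.eq_zero_iff_mem, map_mul]
    simpa [Algebra.smul_def] using hx
  exact Ideal.Quotient.eq_zero_iff_mem.mpr ((Ideal.IsPrime.mem_or_mem ‹_› this).resolve_left hg)

/-- The curves through `f`. -/
noncomputable def curves {f : R} (hf : f ≠ 0) : Finset (Curve R) := (finite_curves hf).toFinset

omit [IsDomain R] hD in
theorem mem_curves {f : R} (hf : f ≠ 0) (C : Curve R) : C ∈ curves hf ↔ f ∈ C.I := by
  simp [curves]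

omit hD in
theorem assoc_formula {f g : R} (hf : f ≠ 0) (hg : ∀ C : Curve R, f ∈ C.I → g ∉ C.I)
    (M : Type*) [AddCommGroup M] [Module R M] (hM : Module.Finite R M)
    (hfM : ∀ m : M, f • m = 0) :
    tLen g M ≠ ⊤ ∧ cLen g M = tLen g M
      + ∑ C ∈ curves hf, lC C M * Ring.ord (R ⧸ C.I) (Ideal.Quotient.mk C.I g) := by
  induction hM using IsNoetherianRing.induction_on_isQuotientEquivQuotientPrime R with
  | subsingleton N =>
    have h1 : cLen g N = 0 := by rw [cLen, Module.length_eq_zero_iff]; infer_instance
    have h2 : tLen g N = 0 := by rw [tLen, Module.length_eq_zero_iff]; infer_instance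
    have h3 : ∀ C : Curve R, lC C N = 0 := fun C => lC_zero C N fun m =>
      ⟨1, fun h => C.prime.ne_top ((Ideal.eq_top_iff_one _).mpr h), Subsingleton.elim _ _⟩
    refine ⟨by simp [h2], ?_⟩
    rw [h1, h2]
    simp [h3]
  | quotient N p e =>
    have hfp : f ∈ p.1 := by
      have h := hfM (e.symm (Ideal.Quotient.mk _ 1))
      rw [← map_smul, LinearEquiv.map_eq_zero_iff, Algebra.smul_def] at h
      simpa [Ideal.Quotient.eq_zero_iff_mem] using h
    have hp0 : p.1 ≠ ⊥ := fun h => hf (by simpa [h] using hfp)
    by_cases hpm : p.1 = maximalIdeal R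
    · -- the closed point
      have hN : IsFiniteLength R N := by
        have : IsSimpleModule R (R ⧸ p.1) :=
          isSimpleModule_iff_isCoatom.mpr (hpm ▸ (maximalIdeal.isMaximal R).out)
        have h1 : Module.length R N = 1 := by
          rw [e.length_eq, Module.length_eq_one_iff]; exact this
        rw [← Module.length_ne_top_iff, h1]; simp
      have hfin : Module.length R N ≠ ⊤ := Module.length_ne_top_iff.mpr hN
      have h0 : ∀ C : Curve R, lC C N = 0 := by
        intro C
        obtain ⟨t, ht, htC⟩ : ∃ t, t ∈ maximalIdeal R ∧ t ∉ C.I :=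
          SetLike.not_le_iff_exists.mp fun hle => C.ne_max
            (le_antisymm (IsLocalRing.le_maximalIdeal C.prime.ne_top) hle)
        refine lC_zero C N fun m => ⟨t, htC, e.injective ?_⟩
        rw [map_smul, map_zero]
        obtain ⟨r, hr⟩ := Ideal.Quotient.mk_surjective (e m)
        rw [← hr, Algebra.smul_def, Ideal.Quotient.algebraMap_eq, ← map_mul,
          Ideal.Quotient.eq_zero_iff_mem]
        exact p.1.mul_mem_right r (hpm ▸ ht)
      have hrange : Module.length R (range (lsmul R N g)) ≠ ⊤ :=
        ne_top_of_le_ne_top hfin (Module.length_le_of_injective _ (Submodule.injective_subtype _))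
      have hker : tLen g N ≠ ⊤ :=
        ne_top_of_le_ne_top hfin (Module.length_le_of_injective _ (Submodule.injective_subtype _))
      refine ⟨hker, ?_⟩
      have h1 := length_ker_add_range (lsmul R N g)
      have h2 := Module.length_eq_add_of_exact (range (lsmul R N g)).subtype
        (Submodule.mkQ _) (Submodule.injective_subtype _) (Submodule.mkQ_surjective _)
        (exact_subtype_mkQ _)
      rw [h2, add_comm] at h1
      simp only [h0, zero_mul, Finset.sum_const_zero, add_zero]
      exact (WithTop.add_right_inj hrange).mp h1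
    · -- a curve
      let C : Curve R := ⟨p.1, p.2, hp0, hpm⟩
      have hC : g ∉ C.I := hg C hfp
      have ht : tLen g N = 0 := by
        have h := tLen_le e.toLinearMap (0 : (R ⧸ p.1) →ₗ[R] PUnit) e.injective
          ((e.exact_zero_iff_surjective _).2 e.surjective) g
        have h' := tLen_le e.symm.toLinearMap (0 : N →ₗ[R] PUnit) e.symm.injective
          ((e.symm.exact_zero_iff_surjective _).2 e.symm.surjective) g
        have hP : tLen g PUnit = 0 := by rw [tLen, Module.length_eq_zero_iff]; infer_instance
        rw [tLen_quot_eq_zero g C.I hC, zero_add, hP] at h'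
        exact nonpos_iff_eq_zero.mp h'
      have hc : cLen g N = Ring.ord (R ⧸ C.I) (Ideal.Quotient.mk C.I g) := by
        rw [← cLen_quot]
        exact (Submodule.Quotient.equiv _ _ e (by
          ext x
          simp only [Submodule.mem_map, mem_range, lsmul_apply]
          constructor
          · rintro ⟨_, ⟨y, rfl⟩, rfl⟩; exact ⟨e y, (map_smul e g y).symm⟩
          · rintro ⟨y, rfl⟩
            exact ⟨g • e.symm y, ⟨e.symm y, rfl⟩,
              (map_smul e g _).trans (by rw [e.apply_symm_apply])⟩)).length_eq
      refine ⟨by simp [ht], ?_⟩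
      rw [hc, ht, zero_add, Finset.sum_eq_single_of_mem C ((mem_curves hf C).mpr hfp)]
      · rw [lC_congr C e]
        show _ = lC C (R ⧸ C.I) * _
        rw [lC_self, one_mul]
      · intro D _ hDC
        obtain ⟨t, htC, htD⟩ := Curve.exists_notMem (fun h => hDC h.symm : C ≠ D)
        rw [lC_zero D N (fun m => ⟨t, htD, e.injective ?_⟩), zero_mul]
        rw [map_smul, map_zero]
        obtain ⟨r, hr⟩ := Ideal.Quotient.mk_surjective (e m)
        rw [← hr, Algebra.smul_def, Ideal.Quotient.algebraMap_eq, ← map_mul,
          Ideal.Quotient.eq_zero_iff_mem]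
        exact p.1.mul_mem_right r htC
  | exact N₁ N₂ N₃ i q hi hq hiq ih1 ih3 =>
    obtain ⟨t1, e1⟩ := ih1 (fun m => hi (by rw [map_smul, hfM, map_zero]))
    obtain ⟨t3, e3⟩ := ih3 (fun m => by
      obtain ⟨m, rfl⟩ := hq m
      rw [← map_smul, hfM, map_zero])
    refine ⟨ne_top_of_le_ne_top (WithTop.add_ne_top.mpr ⟨t1, t3⟩) (tLen_le i q hi hiq g), ?_⟩
    have h := euler_add i q hi hq hiq g
    rw [e1, e3] at h
    simp only [fun C : Curve R => lC_add C i q hi hq hiq, add_mul, Finset.sum_add_distrib]
    have hne : tLen g N₁ + tLen g N₃ ≠ (⊤ : ℕ∞) := by simp [t1, t3]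
    refine ENat.add_left_injective_of_ne_top hne ?_
    show _ + (_ : ℕ∞) = _ + _
    rw [← add_assoc, h]
    ac_rfl

end Vale.Agent.P199.Recip
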