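import Vale.Agent.P199.Recip.Euler

/-!
# Curves on a two-dimensional local domain and the tame symbol order

A curve is a prime ideal which is neither zero nor the maximal ideal.  For nonzero
`f, g` with orders `a, b` along a curve `C`, the value `res C (f^b) (g^a)` is the order
at the closed point of the restriction of `f^b / g^a` to `C`.
-/

namespace Vale.Agent.P199.Recip

open IsLocalRing

variable (R : Type*) [CommRing R] [IsLocalRing R]

/-- A prime ideal different from zero and from the maximal ideal. -/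
structure Curve where
  /-- The ideal. -/
  I : Ideal R
  prime : I.IsPrime
  ne_bot : I ≠ ⊥
  ne_max : I ≠ maximalIdeal R

attribute [instance] Curve.prime

variable {R}

theorem Curve.ext {C D : Curve R} (h : C.I = D.I) : C = D := by
  cases C; cases D; congr

/-- The local ring at a curve. -/
abbrev Curve.loc (C : Curve R) : Type _ := Localization.AtPrime C.I

/-- A local domain of dimension at most two: the only prime above a nonzero prime and
different from it is the maximal ideal. -/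
class TwoDim (R : Type*) [CommRing R] [IsLocalRing R] : Prop where
  max_of_lt : ∀ p q : Ideal R, p.IsPrime → q.IsPrime → p ≠ ⊥ → p < q → q = maximalIdeal R

variable [IsDomain R] [IsNoetherianRing R] [TwoDim R]
  [hD : ∀ C : Curve R, IsDiscreteValuationRing C.loc]

omit [IsDomain R] [IsNoetherianRing R] hD in
theorem Curve.eq_of_le {C D : Curve R} (h : C.I ≤ D.I) : C = D := by
  rcases h.lt_or_eq with h | h
  · exact absurd (TwoDim.max_of_lt _ _ C.prime D.prime C.ne_bot h) D.ne_max
  · exact Curve.ext h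

omit [IsDomain R] [IsNoetherianRing R] hD in
theorem Curve.exists_notMem {C D : Curve R} (h : C ≠ D) : ∃ x, x ∈ C.I ∧ x ∉ D.I :=
  SetLike.not_le_iff_exists.mp fun hle => h (Curve.eq_of_le hle)

omit [IsDomain R] [IsNoetherianRing R] hD in
theorem Curve.dimLE (C : Curve R) : Ring.KrullDimLE 1 (R ⧸ C.I) := by
  rw [Ring.krullDimLE_one_iff_of_noZeroDivisors]
  intro P hP hPp
  have hP' : P.comap (Ideal.Quotient.mk C.I) = maximalIdeal R := by
    refine TwoDim.max_of_lt C.I _ C.prime (Ideal.IsPrime.comap _) C.ne_bot ?_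
    have h1 : C.I ≤ P.comap (Ideal.Quotient.mk C.I) := by
      intro x hx
      rw [Ideal.mem_comap, Ideal.Quotient.eq_zero_iff_mem.mpr hx]
      exact P.zero_mem
    refine lt_of_le_of_ne h1 fun he => hP ?_
    rw [← Ideal.map_comap_of_surjective _ Ideal.Quotient.mk_surjective P, ← he,
      Ideal.map_quotient_self]
  have h2 : P = Ideal.map (Ideal.Quotient.mk C.I) (maximalIdeal R) := by
    rw [← hP', Ideal.map_comap_of_surjective _ Ideal.Quotient.mk_surjective P]
  rcases Ideal.map_eq_top_or_isMaximal_of_surjective (Ideal.Quotient.mk C.I)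
    Ideal.Quotient.mk_surjective (maximalIdeal.isMaximal R) with h3 | h3
  · exact absurd (h2.trans h3) hPp.ne_top
  · exact h2 ▸ h3

instance (C : Curve R) : Ring.KrullDimLE 1 (R ⧸ C.I) := C.dimLE

/-- Order along a curve. -/
noncomputable def ordC (C : Curve R) (x : R) : ℕ :=
  (IsDiscreteValuationRing.addVal C.loc (algebraMap R C.loc x)).toNat

omit [IsNoetherianRing R] [TwoDim R] hD in
theorem loc_ne_zero (C : Curve R) {x : R} (hx : x ≠ 0) : algebraMap R C.loc x ≠ 0 := by
  intro h
  apply hx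
  apply IsLocalization.injective C.loc C.I.primeCompl_le_nonZeroDivisors
  rw [h, map_zero]

omit [IsNoetherianRing R] [TwoDim R] in
theorem ordC_coe (C : Curve R) {x : R} (hx : x ≠ 0) :
    (ordC C x : ℕ∞) = IsDiscreteValuationRing.addVal C.loc (algebraMap R C.loc x) := by
  refine ENat.natCast_toNat ?_
  simp only [ne_eq, IsDiscreteValuationRing.addVal_eq_top_iff]
  exact loc_ne_zero C hx

omit [IsNoetherianRing R] [TwoDim R] in
theorem ordC_mul (C : Curve R) {x y : R} (hx : x ≠ 0) (hy : y ≠ 0) :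
    ordC C (x * y) = ordC C x + ordC C y := by
  have h := ordC_coe C (mul_ne_zero hx hy)
  rw [map_mul, IsDiscreteValuationRing.addVal_mul, ← ordC_coe C hx, ← ordC_coe C hy] at h
  exact_mod_cast h

omit [IsNoetherianRing R] [TwoDim R] in
theorem ordC_eq_zero (C : Curve R) {x : R} (hx : x ∉ C.I) : ordC C x = 0 := by
  have hu : IsUnit (algebraMap R C.loc x) :=
    IsLocalization.map_units (M := C.I.primeCompl) C.loc ⟨x, hx⟩
  obtain ⟨u, hu⟩ := hu
  unfold ordC
  rw [← hu]
  simp

omit [IsNoetherianRing R] [TwoDim R] in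
theorem mem_of_ordC_ne_zero (C : Curve R) {x : R} (hx : ordC C x ≠ 0) : x ∈ C.I := by
  by_contra h
  exact hx (ordC_eq_zero C h)

omit [IsNoetherianRing R] [TwoDim R] in
theorem ordC_pow (C : Curve R) {x : R} (hx : x ≠ 0) (n : ℕ) :
    ordC C (x ^ n) = n * ordC C x := by
  induction n with
  | zero => simp [ordC_eq_zero C (fun h => C.prime.ne_top ((Ideal.eq_top_iff_one _).mpr h))]
  | succ n ih => rw [pow_succ, ordC_mul C (pow_ne_zero n hx) hx, ih]; ring

omit [IsNoetherianRing R] [TwoDim R] in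
theorem exists_rel (C : Curve R) {u v : R} (hu : u ≠ 0) (hv : v ≠ 0)
    (h : ordC C u = ordC C v) : ∃ w z : R, w ∉ C.I ∧ z ∉ C.I ∧ u * z = v * w := by
  have h1 : IsDiscreteValuationRing.addVal C.loc (algebraMap R C.loc v)
      = IsDiscreteValuationRing.addVal C.loc (algebraMap R C.loc u) := by
    rw [← ordC_coe C hu, ← ordC_coe C hv, h]
  obtain ⟨c, hc⟩ := (IsDiscreteValuationRing.addVal_eq_iff_associated _ _).mp h1
  obtain ⟨⟨w, z⟩, hwz⟩ := IsLocalization.surj C.I.primeCompl (c : C.loc)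
  have hw : w ∉ C.I := by
    intro hw
    have : IsUnit (algebraMap R C.loc w) := by
      rw [← hwz]
      exact c.isUnit.mul (IsLocalization.map_units C.loc z)
    exact (IsLocalization.AtPrime.isUnit_to_map_iff C.loc C.I w).mp this hw
  refine ⟨w, z, hw, z.2, IsLocalization.injective C.loc C.I.primeCompl_le_nonZeroDivisors ?_⟩
  rw [map_mul, map_mul, ← hwz, ← hc]
  ring

/-- Order at the closed point of the image of `x` in `R ⧸ C`. -/
noncomputable def pOrd (C : Curve R) (x : R) : ℤ :=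
  ((Ring.ord (R ⧸ C.I) (Ideal.Quotient.mk C.I x)).toNat : ℤ)

omit hD in
theorem pOrd_mul (C : Curve R) {x y : R} (hx : x ∉ C.I) (hy : y ∉ C.I) :
    pOrd C (x * y) = pOrd C x + pOrd C y := by
  have hx' : Ideal.Quotient.mk C.I x ∈ nonZeroDivisors (R ⧸ C.I) :=
    mem_nonZeroDivisors_of_ne_zero fun h => hx (Ideal.Quotient.eq_zero_iff_mem.mp h)
  have hy' : Ideal.Quotient.mk C.I y ∈ nonZeroDivisors (R ⧸ C.I) :=
    mem_nonZeroDivisors_of_ne_zero fun h => hy (Ideal.Quotient.eq_zero_iff_mem.mp h)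
  unfold pOrd
  rw [map_mul, Ring.ord_mul _ hy', ENat.toNat_add (Ring.ord_ne_top hx') (Ring.ord_ne_top hy')]
  push_cast; ring

open Classical in
/-- For `u, v` of equal order along `C`, the order at the closed point of `u/v` on `C`. -/
noncomputable def res (C : Curve R) (u v : R) : ℤ :=
  if h : ∃ q : R × R, q.1 ∉ C.I ∧ q.2 ∉ C.I ∧ u * q.2 = v * q.1 then
    pOrd C h.choose.1 - pOrd C h.choose.2
  else 0

omit hD in
theorem res_eq (C : Curve R) {u v w z : R} (hv : v ≠ 0) (hw : w ∉ C.I) (hz : z ∉ C.I)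
    (h : u * z = v * w) : res C u v = pOrd C w - pOrd C z := by
  have hex : ∃ q : R × R, q.1 ∉ C.I ∧ q.2 ∉ C.I ∧ u * q.2 = v * q.1 := ⟨(w, z), hw, hz, h⟩
  rw [res, dif_pos hex]
  obtain ⟨h1, h2, h3⟩ := hex.choose_spec
  have h4 : hex.choose.1 * z = w * hex.choose.2 := by
    apply mul_left_cancel₀ hv
    linear_combination (norm := ring_nf) -z * h3 + hex.choose.2 * h
  have := congrArg (pOrd C) h4
  rw [pOrd_mul C h1 hz, pOrd_mul C hw h2] at this
  linarith

/-- The tame symbol order of `f, g` at the closed point along `C`. -/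
noncomputable def sC (C : Curve R) (f g : R) : ℤ :=
  res C (f ^ ordC C g) (g ^ ordC C f)

/-- Sum over all curves. -/
noncomputable def sig (f g : R) : ℤ := ∑ᶠ C : Curve R, sC C f g

theorem sC_mul_left (C : Curve R) {f1 f2 g : R} (h1 : f1 ≠ 0) (h2 : f2 ≠ 0) (hg : g ≠ 0) :
    sC C (f1 * f2) g = sC C f1 g + sC C f2 g := by
  obtain ⟨w1, z1, hw1, hz1, e1⟩ := exists_rel C (pow_ne_zero (ordC C g) h1)
    (pow_ne_zero (ordC C f1) hg) (by rw [ordC_pow C h1, ordC_pow C hg]; ring)
  obtain ⟨w2, z2, hw2, hz2, e2⟩ := exists_rel C (pow_ne_zero (ordC C g) h2)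
    (pow_ne_zero (ordC C f2) hg) (by rw [ordC_pow C h2, ordC_pow C hg]; ring)
  have hmul : ∀ {x y : R}, x ∉ C.I → y ∉ C.I → x * y ∉ C.I :=
    fun hx hy h => (C.prime.mem_or_mem h).elim hx hy
  unfold sC
  rw [res_eq C (pow_ne_zero _ hg) hw1 hz1 e1, res_eq C (pow_ne_zero _ hg) hw2 hz2 e2,
    res_eq C (pow_ne_zero _ hg) (hmul hw1 hw2) (hmul hz1 hz2) (by
      rw [ordC_mul C h1 h2, mul_pow, pow_add]
      linear_combination z2 * f2 ^ ordC C g * e1 + g ^ ordC C f1 * w1 * e2),
    pOrd_mul C hw1 hw2, pOrd_mul C hz1 hz2]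
  ring

theorem sC_swap (C : Curve R) {f g : R} (hf : f ≠ 0) (hg : g ≠ 0) :
    sC C g f = -sC C f g := by
  obtain ⟨w, z, hw, hz, e⟩ := exists_rel C (pow_ne_zero (ordC C g) hf)
    (pow_ne_zero (ordC C f) hg) (by rw [ordC_pow C hf, ordC_pow C hg]; ring)
  unfold sC
  rw [res_eq C (pow_ne_zero _ hg) hw hz e, res_eq C (pow_ne_zero _ hf) hz hw e.symm]
  ring

theorem sC_eq_zero (C : Curve R) {f g : R} (hf : f ∉ C.I) (hg : g ∉ C.I) : sC C f g = 0 := by
  have h1 : (1 : R) ∉ C.I := fun h => C.prime.ne_top ((Ideal.eq_top_iff_one _).mpr h)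
  unfold sC
  rw [ordC_eq_zero C hf, ordC_eq_zero C hg, pow_zero, pow_zero,
    res_eq C one_ne_zero h1 h1 rfl, sub_self]

omit [IsDomain R] hD in
theorem finite_curves {x : R} (hx : x ≠ 0) :
    {C : Curve R | x ∈ C.I}.Finite := by
  have hfin := (Ideal.span {x}).finite_minimalPrimes_of_isNoetherianRing
  refine Set.Finite.of_finite_image (f := fun C : Curve R => C.I) (hfin.subset ?_)
    (fun C _ D _ h => Curve.ext h)
  rintro _ ⟨C, hC, rfl⟩
  obtain ⟨p, hp, hle⟩ := Ideal.exists_minimalPrimes_le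
    (Ideal.span_le.mpr (Set.singleton_subset_iff.mpr hC) : Ideal.span {x} ≤ C.I)
  have hxp : x ∈ p := hp.1.2 (Ideal.mem_span_singleton_self x)
  have hp0 : p ≠ ⊥ := fun h => hx (by simpa [h] using hxp)
  have hpm : p ≠ maximalIdeal R := fun h => C.ne_max
    (le_antisymm (IsLocalRing.le_maximalIdeal C.prime.ne_top) (h ▸ hle))
  have := Curve.eq_of_le (C := ⟨p, hp.1.1, hp0, hpm⟩) (D := C) hle
  rw [← this]; exact hp

omit [IsDomain R] hD in
theorem finite_curves_mul {f g : R} (hf : f ≠ 0) (hg : g ≠ 0) :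
    {C : Curve R | f ∈ C.I ∨ g ∈ C.I}.Finite :=
  (finite_curves hf).union (finite_curves hg)

theorem sC_support {f g : R} (hf : f ≠ 0) (hg : g ≠ 0) :
    (Function.support fun C : Curve R => sC C f g).Finite := by
  refine (finite_curves_mul hf hg).subset fun C hC => ?_
  by_contra h
  simp only [Set.mem_ofPred_eq, not_or] at h
  exact hC (sC_eq_zero C h.1 h.2)

theorem sig_mul_left {f1 f2 g : R} (h1 : f1 ≠ 0) (h2 : f2 ≠ 0) (hg : g ≠ 0) :
    sig (f1 * f2) g = sig f1 g + sig f2 g := by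
  unfold sig
  rw [← finsum_add_distrib (sC_support h1 hg) (sC_support h2 hg)]
  exact finsum_congr fun C => sC_mul_left C h1 h2 hg

theorem sig_swap {f g : R} (hf : f ≠ 0) (hg : g ≠ 0) : sig g f = -sig f g := by
  unfold sig
  rw [← finsum_neg_distrib]
  exact finsum_congr fun C => sC_swap C hf hg

end Vale.Agent.P199.Recip
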