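import Mathlib

/-!
# Euler characteristic of multiplication by an element

For a module `M` and an element `g`, the pair of lengths of `M/gM` and of the
`g`-torsion is additive in short exact sequences.
-/

namespace Vale.Agent.P199.Recip

open LinearMap

variable {R : Type*} [CommRing R]
variable {N M Q : Type*} [AddCommGroup N] [Module R N] [AddCommGroup M] [Module R M]
  [AddCommGroup Q] [Module R Q]

/-- The length of `M/gM`. -/
noncomputable def cLen (g : R) (M : Type*) [AddCommGroup M] [Module R M] : ℕ∞ :=
  Module.length R (M ⧸ range (lsmul R M g))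

/-- The length of the `g`-torsion of `M`. -/
noncomputable def tLen (g : R) (M : Type*) [AddCommGroup M] [Module R M] : ℕ∞ :=
  Module.length R (ker (lsmul R M g))

theorem length_ker_add_range (f : M →ₗ[R] Q) :
    Module.length R M = Module.length R (ker f) + Module.length R (range f) :=
  Module.length_eq_add_of_exact (ker f).subtype f.rangeRestrict (ker f).injective_subtype
    f.surjective_rangeRestrict (by
      rw [exact_iff, ker_rangeRestrict, Submodule.range_subtype])

theorem euler_add (i : N →ₗ[R] M) (p : M →ₗ[R] Q) (hi : Function.Injective i)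
    (hp : Function.Surjective p) (hip : Function.Exact i p) (g : R) :
    cLen g M + tLen g N + tLen g Q = cLen g N + cLen g Q + tLen g M := by
  -- the four maps of the six term sequence
  let ci : N ⧸ range (lsmul R N g) →ₗ[R] M ⧸ range (lsmul R M g) :=
    Submodule.mapQ _ _ i (by
      rintro _ ⟨n, rfl⟩
      exact ⟨i n, by simp⟩)
  let cp : M ⧸ range (lsmul R M g) →ₗ[R] Q ⧸ range (lsmul R Q g) :=
    Submodule.mapQ _ _ p (by
      rintro _ ⟨n, rfl⟩
      exact ⟨p n, by simp⟩)
  let ti : ker (lsmul R N g) →ₗ[R] ker (lsmul R M g) :=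
    i.restrict (fun n hn => by
      simp only [mem_ker, lsmul_apply] at hn ⊢
      rw [← map_smul, hn, map_zero])
  let tp : ker (lsmul R M g) →ₗ[R] ker (lsmul R Q g) :=
    p.restrict (fun n hn => by
      simp only [mem_ker, lsmul_apply] at hn ⊢
      rw [← map_smul, hn, map_zero])
  have hpi : ∀ n, p (i n) = 0 := fun n => hip.apply_apply_eq_zero n
  have hcp : Function.Surjective cp := by
    intro x
    obtain ⟨q, rfl⟩ := Submodule.mkQ_surjective _ x
    obtain ⟨m, rfl⟩ := hp q
    exact ⟨Submodule.mkQ _ m, rfl⟩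
  have hker_cp : ker cp = range ci := by
    apply le_antisymm
    · intro x hx
      obtain ⟨m, rfl⟩ := Submodule.mkQ_surjective _ x
      have hx' : p m ∈ range (lsmul R Q g) := by
        rw [mem_ker] at hx
        exact (Submodule.Quotient.mk_eq_zero _).mp hx
      obtain ⟨q, hq⟩ := hx'
      obtain ⟨m', rfl⟩ := hp q
      have h0 : p (m - g • m') = 0 := by
        rw [map_sub, map_smul, ← hq, lsmul_apply, sub_self]
      obtain ⟨n, hn⟩ := (hip _).mp h0
      refine ⟨Submodule.mkQ _ n, ?_⟩
      show Submodule.Quotient.mk (i n) = Submodule.Quotient.mk m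
      rw [Submodule.Quotient.eq]
      exact ⟨-m', by rw [hn]; simp⟩
    · rintro _ ⟨x, rfl⟩
      obtain ⟨n, rfl⟩ := Submodule.mkQ_surjective _ x
      rw [mem_ker]
      show Submodule.Quotient.mk (p (i n)) = 0
      rw [hpi, Submodule.Quotient.mk_zero]
  have hti : Function.Injective ti := fun a b h =>
    Subtype.ext (hi (congrArg Subtype.val h))
  have hker_tp : ker tp = range ti := by
    apply le_antisymm
    · intro x hx
      rw [mem_ker] at hx
      obtain ⟨n, hn⟩ := (hip _).mp (congrArg Subtype.val hx)
      refine ⟨⟨n, ?_⟩, Subtype.ext hn⟩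
      rw [mem_ker, lsmul_apply]
      apply hi
      rw [map_smul, hn, map_zero]
      exact x.2
    · rintro _ ⟨x, rfl⟩
      rw [mem_ker]
      exact Subtype.ext (hpi _)
  -- the connecting map
  let P : Submodule R M := ker ((lsmul R Q g).comp p)
  let π : P →ₗ[R] ker (lsmul R Q g) := p.restrict (fun m hm => hm)
  have hπ : Function.Surjective π := by
    rintro ⟨q, hq⟩
    obtain ⟨m, rfl⟩ := hp q
    exact ⟨⟨m, hq⟩, rfl⟩
  let gm : P →ₗ[R] range i := ((lsmul R M g).comp P.subtype).codRestrict (range i) (fun m => by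
    have h : p (g • (m : M)) = 0 := by
      rw [map_smul]; exact m.2
    exact (hip _).mp h)
  let ei : N ≃ₗ[R] range i := LinearEquiv.ofInjective i hi
  let ψ : P →ₗ[R] N ⧸ range (lsmul R N g) :=
    (Submodule.mkQ _).comp (ei.symm.toLinearMap.comp gm)
  have hei : ∀ m : P, i (ei.symm (gm m)) = g • (m : M) := by
    intro m
    have h := congrArg Subtype.val (ei.apply_symm_apply (gm m))
    exact h
  have hψker : ker π ≤ ker ψ := by
    intro m hm
    rw [mem_ker] at hm ⊢
    obtain ⟨n, hn⟩ := (hip _).mp (congrArg Subtype.val hm)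
    show Submodule.Quotient.mk (ei.symm (gm m)) = 0
    rw [Submodule.Quotient.mk_eq_zero]
    refine ⟨n, hi ?_⟩
    rw [hei, lsmul_apply, map_smul, hn, Submodule.subtype_apply]
  let θ : ker (lsmul R Q g) →ₗ[R] N ⧸ range (lsmul R N g) :=
    ((ker π).liftQ ψ hψker).comp (π.quotKerEquivOfSurjective hπ).symm.toLinearMap
  have hθ : ∀ m : P, θ (π m) = ψ m := by
    intro m
    have h : (π.quotKerEquivOfSurjective hπ).symm (π m) = Submodule.Quotient.mk m := by
      rw [LinearEquiv.symm_apply_eq]; rfl
    show (ker π).liftQ ψ hψker ((π.quotKerEquivOfSurjective hπ).symm (π m)) = ψ m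
    rw [h]; rfl
  have hθker : ker θ = range tp := by
    apply le_antisymm
    · intro x hx
      obtain ⟨m, rfl⟩ := hπ x
      rw [mem_ker, hθ] at hx
      obtain ⟨n, hn⟩ := (Submodule.Quotient.mk_eq_zero _).mp hx
      have h2 : g • ((m : M) - i n) = 0 := by
        rw [smul_sub, ← map_smul, ← lsmul_apply (R := R) g n, hn]
        simp [hei]
      refine ⟨⟨(m : M) - i n, h2⟩, Subtype.ext ?_⟩
      show p ((m : M) - i n) = p m
      rw [map_sub, hpi, sub_zero]
    · rintro _ ⟨m, rfl⟩
      rw [mem_ker]
      have hm : g • (m : M) = 0 := m.2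
      have hmP : (m : M) ∈ P := by
        show g • p m = 0
        rw [← map_smul, hm, map_zero]
      have h := hθ ⟨m, hmP⟩
      rw [show tp m = π ⟨m, hmP⟩ from rfl, h]
      show Submodule.Quotient.mk (ei.symm (gm ⟨m, hmP⟩)) = 0
      rw [show gm ⟨m, hmP⟩ = 0 from Subtype.ext hm, map_zero, Submodule.Quotient.mk_zero]
  have hθrange : range θ = ker ci := by
    apply le_antisymm
    · rintro _ ⟨x, rfl⟩
      obtain ⟨m, rfl⟩ := hπ x
      rw [hθ, mem_ker]
      show Submodule.Quotient.mk (i (ei.symm (gm m))) = 0
      rw [hei, Submodule.Quotient.mk_eq_zero]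
      exact ⟨m, rfl⟩
    · intro x hx
      obtain ⟨n, rfl⟩ := Submodule.mkQ_surjective _ x
      rw [mem_ker] at hx
      obtain ⟨m, hm⟩ := (Submodule.Quotient.mk_eq_zero _).mp hx
      have hm' : g • m = i n := hm
      have hmP : m ∈ P := by
        show g • p m = 0
        rw [← map_smul, hm', hpi]
      refine ⟨π ⟨m, hmP⟩, ?_⟩
      rw [hθ]
      show Submodule.Quotient.mk (ei.symm (gm ⟨m, hmP⟩)) = Submodule.Quotient.mk n
      congr 1
      apply hi
      rw [hei, hm']
  have e1 : cLen g M = Module.length R (range ci) + cLen g Q := by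
    unfold cLen
    rw [length_ker_add_range cp, hker_cp, (range_eq_top.mpr hcp), Module.length_top]
  have e2 : cLen g N = Module.length R (range θ) + Module.length R (range ci) := by
    unfold cLen
    rw [length_ker_add_range ci, hθrange]
  have e3 : tLen g M = tLen g N + Module.length R (range tp) := by
    unfold tLen
    rw [length_ker_add_range tp, hker_tp,
      (LinearEquiv.ofInjective ti hti).symm.length_eq]
  have e4 : tLen g Q = Module.length R (range tp) + Module.length R (range θ) := by
    unfold tLen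
    rw [length_ker_add_range θ, hθker]
  rw [e1, e2, e3, e4]
  ac_rfl

end Vale.Agent.P199.Recip
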