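import Vale.Agent.P199.Recip.Euler

/-!
# Orders in finite extensions of a one-dimensional local domain

For a finite torsion-free module `B` of rank `n` over a one-dimensional Noetherian domain `A`,
`length (B/tB) = n * ord_A t`; for a Dedekind domain `B` this length is the sum over the maximal
ideals of the multiplicity of `t` times the residue length.
-/

namespace Vale.Agent.P199.Recip

open LinearMap

variable {A : Type*} [CommRing A] [IsDomain A] [IsNoetherianRing A] [Ring.KrullDimLE 1 A]

theorem length_ne_top_of_killed {M : Type*} [AddCommGroup M] [Module A M] [Module.Finite A M]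
    {a : A} (ha : a ≠ 0) (h : ∀ m : M, a • m = 0) : Module.length A M ≠ ⊤ := by
  obtain ⟨k, v, hv⟩ := Module.Finite.exists_fin (R := A) (M := M)
  let φ : (Fin k → A ⧸ Ideal.span {a}) →ₗ[A] M :=
    ∑ i, ((Ideal.span {a}).liftQ (LinearMap.toSpanSingleton A M (v i)) (fun x hx => by
      obtain ⟨c, rfl⟩ := Ideal.mem_span_singleton'.mp hx
      rw [mem_ker, toSpanSingleton_apply, mul_smul, h, smul_zero])).comp (LinearMap.proj i)
  have hφ : Function.Surjective φ := by
    rw [← range_eq_top, eq_top_iff, ← hv, Submodule.span_le]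
    rintro _ ⟨i, rfl⟩
    refine ⟨Pi.single i (Ideal.Quotient.mk _ 1), ?_⟩
    simp only [φ, LinearMap.coe_sum, Finset.sum_apply, LinearMap.comp_apply, proj_apply]
    rw [Finset.sum_eq_single i (fun j _ hj => by rw [Pi.single_eq_of_ne hj, map_zero]) (by simp),
      Pi.single_eq_same]
    show (Ideal.span {a}).liftQ _ _ (Submodule.Quotient.mk 1) = v i
    rw [Submodule.liftQ_apply, toSpanSingleton_apply, one_smul]
  refine ne_top_of_le_ne_top ?_ (Module.length_le_of_surjective φ hφ)
  rw [Module.length_pi_of_fintype]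
  exact WithTop.sum_ne_top.mpr fun i _ => Ring.ord_ne_top (mem_nonZeroDivisors_of_ne_zero ha)

theorem cLen_eq_finrank_mul {M : Type*} [AddCommGroup M] [Module A M] [Module.Finite A M]
    [Module.IsTorsionFree A M] {t : A} (ht : t ≠ 0) :
    cLen t M = (Module.finrank A M : ℕ∞) * Ring.ord A t := by
  set n := Module.finrank A M with hn
  obtain ⟨v, hv⟩ := exists_linearIndependent_of_le_finrank (R := A) (M := M) (n := n) le_rfl
  let i : (Fin n → A) →ₗ[A] M := Fintype.linearCombination A v
  have hi : Function.Injective i := hv.fintypeLinearCombination_injective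
  have hclear : ∀ x : M, ∃ a : A, a ≠ 0 ∧ a • x ∈ range i := by
    intro x
    by_contra hcon
    simp only [not_exists, not_and] at hcon
    have hind : LinearIndependent A (Fin.snoc v x : Fin (n + 1) → M) := by
      rw [Fintype.linearIndependent_iff]
      intro g hg
      rw [Fin.sum_univ_castSucc] at hg
      simp only [Fin.snoc_castSucc, Fin.snoc_last] at hg
      have hlast : g (Fin.last n) = 0 := by
        by_contra hne
        refine hcon _ hne ⟨-(g ∘ Fin.castSucc), ?_⟩
        rw [map_neg, neg_eq_iff_add_eq_zero]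
        simpa [i, Fintype.linearCombination_apply] using hg
      rw [hlast, zero_smul, add_zero] at hg
      intro j
      refine Fin.lastCases hlast (fun j => ?_) j
      exact Fintype.linearIndependent_iff.mp hv _ hg j
    have := hind.fintype_card_le_finrank
    rw [Fintype.card_fin] at this
    omega
  let Q := M ⧸ range i
  obtain ⟨k, w, hw⟩ := Module.Finite.exists_fin (R := A) (M := M)
  choose a ha hmem using fun j => hclear (w j)
  have hkill : ∀ q : Q, (∏ j, a j) • q = 0 := by
    intro q
    obtain ⟨m, rfl⟩ := Submodule.mkQ_surjective _ q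
    rw [← map_smul]
    refine (Submodule.Quotient.mk_eq_zero _).mpr ?_
    have hle : Submodule.span A (Set.range w) ≤
        (range i).comap (lsmul A M (∏ j, a j)) := by
      rw [Submodule.span_le]
      rintro _ ⟨j, rfl⟩
      show (∏ j, a j) • w j ∈ range i
      rw [← Finset.prod_erase_mul _ _ (Finset.mem_univ j), mul_smul]
      exact (range i).smul_mem _ (hmem j)
    rw [hw] at hle
    exact hle (Submodule.mem_top (x := m))
  have hQ : Module.length A Q ≠ ⊤ :=
    length_ne_top_of_killed (Finset.prod_ne_zero_iff.mpr fun j _ => ha j) hkill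
  have hzero : ∀ (P : Type _) [AddCommGroup P] [Module A P] [Module.IsTorsionFree A P],
      tLen t P = 0 := fun P _ _ _ => by
    rw [tLen, Module.length_eq_zero_iff, Submodule.subsingleton_iff_eq_bot, ker_eq_bot']
    intro x hx
    exact (smul_eq_zero.mp hx).resolve_left ht
  have hbal : cLen t Q = tLen t Q := by
    have h1 := length_ker_add_range (lsmul A Q t)
    have h2 := Module.length_eq_add_of_exact (range (lsmul A Q t)).subtype
      (Submodule.mkQ _) (Submodule.injective_subtype _) (Submodule.mkQ_surjective _)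
      (exact_subtype_mkQ _)
    rw [h2, add_comm] at h1
    exact ENat.add_left_injective_of_ne_top (ne_top_of_le_ne_top hQ
      (Module.length_le_of_injective (range (lsmul A Q t)).subtype (Submodule.injective_subtype _))) h1
  have he := euler_add i (range i).mkQ hi (Submodule.mkQ_surjective _)
    (LinearMap.exact_map_mkQ_range i) t
  have hm : tLen t M = 0 := by
    rw [tLen, Module.length_eq_zero_iff, Submodule.subsingleton_iff_eq_bot, ker_eq_bot']
    intro x hx
    exact (smul_eq_zero.mp hx).resolve_left ht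
  rw [hzero (Fin n → A), hm, add_zero, add_zero, hbal] at he
  have hfin : tLen t Q ≠ ⊤ :=
    ne_top_of_le_ne_top hQ (Module.length_le_of_injective _ (Submodule.injective_subtype _))
  rw [ENat.add_left_injective_of_ne_top hfin he]
  -- the free module
  let π : (Fin n → A) →ₗ[A] (Fin n → A ⧸ Ideal.span {t}) :=
    LinearMap.pi fun j => (Submodule.mkQ _).comp (LinearMap.proj j)
  have hπ : Function.Surjective π := fun y => by
    choose x hx using fun j => Ideal.Quotient.mk_surjective (y j)
    exact ⟨x, funext hx⟩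
  have hker : ker π = range (lsmul A (Fin n → A) t) := by
    ext x
    rw [mem_ker, mem_range, funext_iff]
    constructor
    · intro h
      choose y hy using fun j => Ideal.mem_span_singleton'.mp
        ((Submodule.Quotient.mk_eq_zero _).mp (h j))
      exact ⟨y, funext fun j => by rw [lsmul_apply, Pi.smul_apply, smul_eq_mul, mul_comm, hy, proj_apply]⟩
    · rintro ⟨y, rfl⟩ j
      exact (Submodule.Quotient.mk_eq_zero _).mpr
        (Ideal.mem_span_singleton'.mpr ⟨y j, mul_comm _ _⟩)
  unfold cLen
  rw [← (Submodule.quotEquivOfEq _ _ hker).length_eq, (π.quotKerEquivOfSurjective hπ).length_eq,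
    Module.length_pi_of_fintype, Finset.sum_const, Finset.card_univ, Fintype.card_fin,
    nsmul_eq_mul]
  rfl

theorem span_sup_mul_prime {B : Type*} [CommRing B] [IsDedekindDomain B] {I Q : Ideal B}
    (hI : I ≠ ⊥) [Q.IsMaximal] {x : B} (hxI : x ∈ I) (hxQ : x ∉ I * Q) :
    Ideal.span {x} ⊔ I * Q = I := by
  obtain ⟨J, hJ⟩ : I ∣ Ideal.span {x} ⊔ I * Q := Ideal.dvd_iff_le.mpr
    (sup_le (Ideal.span_le.mpr (Set.singleton_subset_iff.mpr hxI)) Ideal.mul_le_left)
  have hQJ : Q ≤ J := by
    obtain ⟨K, hK⟩ : I * J ∣ I * Q := Ideal.dvd_iff_le.mpr (hJ ▸ le_sup_right)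
    rw [mul_assoc] at hK
    rw [mul_left_cancel₀ hI hK]
    exact Ideal.mul_le_left
  rcases eq_or_ne J ⊤ with h | h
  · rw [hJ, h, ← Ideal.one_eq_top, mul_one]
  · exfalso
    apply hxQ
    rw [‹Q.IsMaximal›.eq_of_le h hQJ, ← hJ]
    exact Ideal.mem_sup_left (Ideal.mem_span_singleton_self x)

theorem exists_quot_seq {B : Type*} [CommRing B] [IsDedekindDomain B] (I Q : Ideal B)
    (hI : I ≠ ⊥) [Q.IsMaximal] :
    ∃ (ι₁ : (B ⧸ Q) →ₗ[B] (B ⧸ I * Q)) (π₁ : (B ⧸ I * Q) →ₗ[B] (B ⧸ I)),
      Function.Injective ι₁ ∧ Function.Surjective π₁ ∧ Function.Exact ι₁ π₁ := by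
  have hne : ¬ I ≤ I * Q := by
    intro hle
    have he : I * Q = I * 1 := by rw [mul_one]; exact le_antisymm Ideal.mul_le_left hle
    have := mul_left_cancel₀ hI he
    exact ‹Q.IsMaximal›.ne_top (this.trans Ideal.one_eq_top)
  obtain ⟨x, hxI, hxQ⟩ := SetLike.not_le_iff_exists.mp hne
  refine ⟨Submodule.mapQ Q (I * Q) (LinearMap.mul B B x) (fun b hb => Ideal.mul_mem_mul hxI hb),
    Submodule.factor Ideal.mul_le_left, ?_, Submodule.factor_surjective _, ?_⟩
  · rw [← ker_eq_bot, ker_eq_bot']
    intro q hq
    obtain ⟨b, rfl⟩ := Ideal.Quotient.mk_surjective q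
    have hb : x * b ∈ I * Q := (Submodule.Quotient.mk_eq_zero _).mp hq
    rw [Ideal.Quotient.eq_zero_iff_mem]
    by_contra hbQ
    obtain ⟨c, d, hd, hcd⟩ := ‹Q.IsMaximal›.exists_inv hbQ
    apply hxQ
    rw [show x = c * (x * b) + x * d by linear_combination (-x) * hcd]
    exact Ideal.add_mem _ (Ideal.mul_mem_left _ c hb) (Ideal.mul_mem_mul hxI hd)
  · rw [exact_iff]
    apply le_antisymm
    · intro y hy
      obtain ⟨b, rfl⟩ := Ideal.Quotient.mk_surjective y
      have hbI : b ∈ I := (Submodule.Quotient.mk_eq_zero _).mp hy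
      rw [← span_sup_mul_prime hI hxI hxQ] at hbI
      obtain ⟨u, hu, v, hv, rfl⟩ := Submodule.mem_sup.mp hbI
      obtain ⟨c, rfl⟩ := Ideal.mem_span_singleton'.mp hu
      refine ⟨Submodule.Quotient.mk c, ?_⟩
      show Submodule.Quotient.mk (x * c) = Submodule.Quotient.mk (c * x + v)
      rw [Submodule.Quotient.eq, show x * c - (c * x + v) = -v by ring]
      exact Ideal.neg_mem_iff _ |>.mpr hv
    · rintro _ ⟨q, rfl⟩
      obtain ⟨b, rfl⟩ := Ideal.Quotient.mk_surjective q
      exact (Submodule.Quotient.mk_eq_zero _).mpr (I.mul_mem_right b hxI)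

theorem length_quot_mul_prime {A B : Type*} [CommRing A] [CommRing B] [Algebra A B]
    [IsDedekindDomain B] (I Q : Ideal B) (hI : I ≠ ⊥) [Q.IsMaximal] :
    Module.length A (B ⧸ I * Q) = Module.length A (B ⧸ I) + Module.length A (B ⧸ Q) := by
  obtain ⟨ι₁, π₁, h1, h2, h3⟩ := exists_quot_seq I Q hI
  rw [Module.length_eq_add_of_exact (ι₁.restrictScalars A) (π₁.restrictScalars A) h1 h2 h3,
    add_comm]

/-- In a Dedekind domain the length of the quotient by a product of maximal ideals is the sum
of the lengths of the residue modules. -/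
theorem length_quot_multiset_prod {A B : Type*} [CommRing A] [CommRing B] [Algebra A B]
    [IsDedekindDomain B] (s : Multiset (Ideal B))
    (hs : ∀ Q ∈ s, Q.IsMaximal ∧ Q ≠ ⊥) :
    Module.length A (B ⧸ s.prod) = (s.map fun Q : Ideal B => Module.length A (B ⧸ Q)).sum := by
  induction s using Multiset.induction_on with
  | empty =>
    rw [Multiset.prod_zero, Ideal.one_eq_top, Multiset.map_zero, Multiset.sum_zero,
      Module.length_eq_zero_iff, Submodule.Quotient.subsingleton_iff]
  | cons Q s ih =>
    have := (hs Q (Multiset.mem_cons_self _ _)).1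
    rw [Multiset.prod_cons, Multiset.map_cons, Multiset.sum_cons, mul_comm,
      length_quot_mul_prime s.prod Q (Multiset.prod_ne_zero fun h =>
        (hs 0 (Multiset.mem_cons_of_mem h)).2 rfl),
      ih fun P hP => hs P (Multiset.mem_cons_of_mem hP), add_comm]

/-- **Extension formula**: the multiplicities of `t` in a finite Dedekind extension `B` of rank
`n`, weighted by the residue lengths, add up to `n * ord_A t`. -/
theorem sum_factor_length {B : Type*} [CommRing B] [IsDedekindDomain B] [Algebra A B]
    [Module.Finite A B] [Module.IsTorsionFree A B] {t : A} (ht : t ≠ 0)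
    (s : Multiset (Ideal B)) (hs : ∀ Q ∈ s, Q.IsMaximal ∧ Q ≠ ⊥)
    (hprod : s.prod = Ideal.span {algebraMap A B t}) :
    (s.map fun Q : Ideal B => Module.length A (B ⧸ Q)).sum
      = (Module.finrank A B : ℕ∞) * Ring.ord A t := by
  rw [← length_quot_multiset_prod s hs, hprod, ← cLen_eq_finrank_mul ht]
  have hr : range (lsmul A B t) = (Ideal.span {algebraMap A B t}).restrictScalars A := by
    ext y
    rw [Submodule.restrictScalars_mem, Ideal.mem_span_singleton', mem_range]
    exact exists_congr fun z => by rw [lsmul_apply, Algebra.smul_def, mul_comm]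
  unfold cLen
  rw [(Submodule.quotEquivOfEq _ _ hr).length_eq,
    (Submodule.Quotient.restrictScalarsEquiv A _).length_eq]

end Vale.Agent.P199.Recip
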