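import Vale.Agent.P199.Recip.Assoc

/-!
# Reciprocity on a two-dimensional local domain which is regular in codimension one
-/

namespace Vale.Agent.P199.Recip

open IsLocalRing LinearMap

variable {R : Type*} [CommRing R] [IsLocalRing R] [IsDomain R] [IsNoetherianRing R] [TwoDim R]
  [hD : ∀ C : Curve R, IsDiscreteValuationRing C.loc]

omit [IsLocalRing R] [IsNoetherianRing R] [TwoDim R] hD in
/-- The first Koszul homology is symmetric. -/
theorem tLen_symm {f g : R} (hf : f ≠ 0) (hg : g ≠ 0) :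
    tLen g (R ⧸ Ideal.span {f}) = tLen f (R ⧸ Ideal.span {g}) := by
  let P : Submodule R R := Submodule.comap (LinearMap.mulLeft R g) (Ideal.span {f})
  have hex : ∀ x : P, ∃ y, f * y = g * (x : R) := by
    intro x
    obtain ⟨y, hy⟩ := Ideal.mem_span_singleton'.mp x.2
    exact ⟨y, by rw [mul_comm]; exact hy⟩
  choose y hy using hex
  let Y : P →ₗ[R] R :=
    { toFun := y
      map_add' := fun a b => by
        apply mul_left_cancel₀ hf
        rw [mul_add, hy, hy, hy, Submodule.coe_add, mul_add]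
      map_smul' := fun c a => by
        apply mul_left_cancel₀ hf
        rw [hy, Submodule.coe_smul, smul_eq_mul, smul_eq_mul, RingHom.id_apply,
          mul_left_comm f c, hy, mul_left_comm] }
  let φ : P →ₗ[R] ker (lsmul R (R ⧸ Ideal.span {f}) g) :=
    ((Submodule.mkQ _).comp P.subtype).codRestrict _ (fun x => by
      rw [mem_ker, lsmul_apply, LinearMap.comp_apply, ← map_smul]
      exact (Submodule.Quotient.mk_eq_zero _).mpr x.2)
  let ψ : P →ₗ[R] ker (lsmul R (R ⧸ Ideal.span {g}) f) :=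
    ((Submodule.mkQ _).comp Y).codRestrict _ (fun x => by
      rw [mem_ker, lsmul_apply, LinearMap.comp_apply, ← map_smul]
      refine (Submodule.Quotient.mk_eq_zero _).mpr ?_
      show f • y x ∈ _
      rw [smul_eq_mul, hy]
      exact Ideal.mem_span_singleton'.mpr ⟨_, mul_comm _ _⟩)
  have hφ : Function.Surjective φ := by
    rintro ⟨q, hq⟩
    obtain ⟨x, rfl⟩ := Submodule.mkQ_surjective _ q
    rw [mem_ker, lsmul_apply, ← map_smul] at hq
    exact ⟨⟨x, (Submodule.Quotient.mk_eq_zero (Ideal.span {f})).mp hq⟩, rfl⟩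
  have hψ : Function.Surjective ψ := by
    rintro ⟨q, hq⟩
    obtain ⟨z, rfl⟩ := Submodule.mkQ_surjective _ q
    rw [mem_ker, lsmul_apply, ← map_smul] at hq
    obtain ⟨x, hx⟩ := Ideal.mem_span_singleton'.mp ((Submodule.Quotient.mk_eq_zero _).mp hq)
    have hxP : x ∈ P := Ideal.mem_span_singleton'.mpr ⟨z, by
      rw [LinearMap.mulLeft_apply, mul_comm g x, hx, smul_eq_mul, mul_comm]⟩
    refine ⟨⟨x, hxP⟩, Subtype.ext (congrArg (Submodule.mkQ _) ?_)⟩
    apply mul_left_cancel₀ hf
    show f * y _ = _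
    rw [hy, mul_comm g x, hx, smul_eq_mul]
  have hker : ker φ = ker ψ := by
    ext x
    simp only [mem_ker, φ, ψ, Subtype.ext_iff, codRestrict_apply, LinearMap.comp_apply,
      ZeroMemClass.coe_zero, Submodule.mkQ_apply, Submodule.Quotient.mk_eq_zero,
      Submodule.subtype_apply, Ideal.mem_span_singleton']
    constructor
    · rintro ⟨t, ht⟩
      exact ⟨t, mul_left_cancel₀ hf (by
        show f * (t * g) = f * y x
        rw [hy]; linear_combination g * ht)⟩
    · rintro ⟨t, ht⟩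
      exact ⟨t, mul_left_cancel₀ hg (by
        show g * (t * f) = g * (x : R)
        rw [← hy]; linear_combination f * ht)⟩
  unfold tLen
  rw [← (φ.quotKerEquivOfSurjective hφ).length_eq, ← (ψ.quotKerEquivOfSurjective hψ).length_eq,
    (Submodule.quotEquivOfEq _ _ hker).length_eq]

omit [IsLocalRing R] [IsDomain R] [IsNoetherianRing R] [TwoDim R] hD in
theorem cLen_symm (f g : R) :
    cLen g (R ⧸ Ideal.span {f}) = cLen f (R ⧸ Ideal.span {g}) := by
  have key : ∀ a b : R,
      cLen b (R ⧸ Ideal.span {a}) = Module.length R (R ⧸ (Ideal.span {a} ⊔ Ideal.span {b})) := by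
    intro a b
    let π : R →ₗ[R] (R ⧸ Ideal.span {a}) ⧸ range (lsmul R (R ⧸ Ideal.span {a}) b) :=
      (Submodule.mkQ _).comp (Submodule.mkQ (Ideal.span {a}))
    have hπ : Function.Surjective π :=
      (Submodule.mkQ_surjective _).comp (Submodule.mkQ_surjective _)
    have hker : ker π = Ideal.span {a} ⊔ Ideal.span {b} := by
      ext x
      show Submodule.Quotient.mk (Submodule.mkQ (Ideal.span {a}) x) = 0 ↔ _
      rw [Submodule.Quotient.mk_eq_zero, mem_range, Submodule.mem_sup]
      constructor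
      · rintro ⟨z, hz⟩
        obtain ⟨z, rfl⟩ := Submodule.mkQ_surjective _ z
        rw [lsmul_apply, ← map_smul] at hz
        refine ⟨x - b • z, ?_, b • z, Ideal.mem_span_singleton'.mpr ⟨z, mul_comm _ _⟩,
          sub_add_cancel _ _⟩
        exact (Submodule.Quotient.eq _).mp hz.symm
      · rintro ⟨u, hu, v, hv, rfl⟩
        obtain ⟨z, rfl⟩ := Ideal.mem_span_singleton'.mp hv
        refine ⟨Submodule.mkQ _ z, ?_⟩
        rw [lsmul_apply, ← map_smul, Submodule.mkQ_apply, Submodule.mkQ_apply,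
          Submodule.Quotient.eq, smul_eq_mul, mul_comm]
        simpa using (Ideal.span {a}).neg_mem hu
    unfold cLen
    rw [← (π.quotKerEquivOfSurjective hπ).length_eq,
      (Submodule.quotEquivOfEq _ _ hker).length_eq]
  rw [key, key, sup_comm]

omit [IsNoetherianRing R] [TwoDim R] hD in
theorem one_notMem (C : Curve R) : (1 : R) ∉ C.I :=
  fun h => C.prime.ne_top ((Ideal.eq_top_iff_one _).mpr h)

/-- The weighted sum of intersection numbers along the curves of `f`. -/
noncomputable def half (f g : R) (hf : f ≠ 0) : ℤ :=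
  ∑ C ∈ curves hf, (ordC C f : ℤ) * pOrd C g

theorem euler_eq {f g : R} (hf : f ≠ 0) (hg : ∀ C : Curve R, f ∈ C.I → g ∉ C.I) :
    half f g hf = ((cLen g (R ⧸ Ideal.span {f})).toNat : ℤ)
      - ((tLen g (R ⧸ Ideal.span {f})).toNat : ℤ) := by
  obtain ⟨ht, he⟩ := assoc_formula hf hg (R ⧸ Ideal.span {f}) inferInstance (fun m => by
    obtain ⟨x, rfl⟩ := Submodule.mkQ_surjective _ m
    rw [← map_smul]
    exact (Submodule.Quotient.mk_eq_zero _).mpr
      (Ideal.mem_span_singleton'.mpr ⟨x, mul_comm _ _⟩))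
  obtain ⟨t, htt⟩ := ENat.ne_top_iff_exists.mp ht
  rw [← htt, Finset.sum_congr rfl (g := fun C => ((ordC C f * (Ring.ord (R ⧸ C.I)
    (Ideal.Quotient.mk C.I g)).toNat : ℕ) : ℕ∞)) (fun C hC => by
      rw [lC_span C hf, Nat.cast_mul, ENat.natCast_toNat (Ring.ord_ne_top
        (mem_nonZeroDivisors_of_ne_zero fun h =>
          hg C ((mem_curves hf C).mp hC) (Ideal.Quotient.eq_zero_iff_mem.mp h)))]),
    ← Nat.cast_sum, ← Nat.cast_add] at he
  rw [he, ← htt, ENat.toNat_natCast, ENat.toNat_natCast, half]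
  push_cast
  simp [pOrd]

omit [IsNoetherianRing R] [TwoDim R] hD in
theorem pOrd_one (C : Curve R) : pOrd C (1 : R) = 0 := by
  simp [pOrd]

theorem pOrd_pow (C : Curve R) {x : R} (hx : x ∉ C.I) (n : ℕ) :
    pOrd C (x ^ n) = n * pOrd C x := by
  induction n with
  | zero => simp [pOrd_one]
  | succ n ih =>
    have hn : x ^ n ∉ C.I := fun h => hx (C.prime.mem_of_pow_mem n h)
    rw [pow_succ, pOrd_mul C hn hx, ih]; push_cast; ring

omit [IsNoetherianRing R] [TwoDim R] hD in
theorem pow_notMem (C : Curve R) {x : R} (hx : x ∉ C.I) (n : ℕ) : x ^ n ∉ C.I :=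
  fun h => hx (C.prime.mem_of_pow_mem n h)

theorem sC_of_left (C : Curve R) {f g : R} (hg0 : g ≠ 0) (hg : g ∉ C.I) :
    sC C f g = -((ordC C f : ℤ) * pOrd C g) := by
  unfold sC
  rw [ordC_eq_zero C hg, pow_zero, res_eq C (pow_ne_zero _ hg0) (one_notMem C)
    (pow_notMem C hg (ordC C f)) (by rw [one_mul, mul_one]), pOrd_one, pOrd_pow C hg]
  ring

theorem sig_disjoint {f g : R} (hf : f ≠ 0) (hg : g ≠ 0)
    (h : ∀ C : Curve R, f ∈ C.I → g ∉ C.I) : sig f g = 0 := by
  classical
  have h' : ∀ C : Curve R, g ∈ C.I → f ∉ C.I := fun C hg hf => h C hf hg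
  have hsub : Function.support (fun C : Curve R => sC C f g) ⊆ ↑(curves hf ∪ curves hg) := by
    intro C hC
    by_contra hn
    simp only [Finset.coe_union, Set.mem_union, Finset.mem_coe, mem_curves, not_or] at hn
    exact hC (sC_eq_zero C hn.1 hn.2)
  unfold sig
  rw [finsum_eq_sum_of_support_subset _ hsub, Finset.sum_union (Finset.disjoint_left.mpr
    fun C h1 h2 => h C ((mem_curves hf C).mp h1) ((mem_curves hg C).mp h2))]
  have e1 : ∑ C ∈ curves hf, sC C f g = -half f g hf := by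
    rw [half, ← Finset.sum_neg_distrib]
    exact Finset.sum_congr rfl fun C hC => sC_of_left C hg (h C ((mem_curves hf C).mp hC))
  have e2 : ∑ C ∈ curves hg, sC C f g = half g f hg := by
    rw [half]
    refine Finset.sum_congr rfl fun C hC => ?_
    have := sC_swap C hf hg
    rw [sC_of_left C hf (h' C ((mem_curves hg C).mp hC))] at this
    linarith
  rw [e1, e2, euler_eq hf h, euler_eq hg h', tLen_symm hf hg, cLen_symm f g]
  ring

/-- If `a` and `c` have the same orders along the curves of `g`, their symbols with `g` agree. -/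
theorem sig_move {a c g : R} (ha : a ≠ 0) (hc : c ≠ 0) (hg : g ≠ 0)
    (h : ∀ D : Curve R, g ∈ D.I → ordC D a = ordC D c) : sig a g = sig c g := by
  let I : Ideal R := Submodule.comap (LinearMap.mulLeft R a) (Ideal.span {c})
  obtain ⟨z, hzI, hz0, hz⟩ : ∃ z ∈ I, z ≠ 0 ∧ ∀ D : Curve R, g ∈ D.I → z ∉ D.I := by
    by_cases hne : (curves hg).Nonempty
    · obtain ⟨D₀, hD₀⟩ := hne
      have hI : ¬ ((I : Set R) ⊆ ⋃ D ∈ (↑(curves hg) : Set (Curve R)), (D.I : Set R)) := by
        rw [Ideal.subset_union_prime D₀ D₀ (fun D _ _ _ => D.prime)]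
        rintro ⟨D, hD', hle⟩
        obtain ⟨w, z, hw, hz, e⟩ := exists_rel D ha hc (h D ((mem_curves hg D).mp hD'))
        exact hz (hle (Ideal.mem_span_singleton'.mpr ⟨w, by rw [mulLeft_apply, e, mul_comm]⟩))
      obtain ⟨z, hzI, hz⟩ := Set.not_subset.mp hI
      simp only [Set.mem_iUnion, mem_curves, SetLike.mem_coe, exists_prop,
        not_exists, not_and] at hz
      exact ⟨z, hzI, fun h0 => hz D₀ ((mem_curves hg D₀).mp hD₀) (h0 ▸ D₀.I.zero_mem), hz⟩
    · refine ⟨c, Ideal.mem_span_singleton'.mpr ⟨a, ?_⟩, hc, fun D hD' => ?_⟩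
      · rw [mulLeft_apply]
      · exact absurd ⟨D, (mem_curves hg D).mpr hD'⟩ hne
  obtain ⟨w, hw⟩ := Ideal.mem_span_singleton'.mp hzI
  rw [mulLeft_apply] at hw
  have hw0 : w ≠ 0 := by
    rintro rfl
    rw [zero_mul] at hw
    exact (mul_ne_zero ha hz0) hw.symm
  have hwD : ∀ D : Curve R, g ∈ D.I → w ∉ D.I := by
    intro D hD'
    have e := ordC_mul D ha hz0
    rw [← hw, ordC_mul D hw0 hc, ordC_eq_zero D (hz D hD'), h D hD'] at e
    intro hwD
    obtain ⟨u, s, hu, hs, eu⟩ := exists_rel D hw0 one_ne_zero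
      (by rw [ordC_eq_zero D (one_notMem D)]; omega)
    rw [one_mul] at eu
    exact hu (eu ▸ D.I.mul_mem_right s hwD)
  have e1 := sig_mul_left ha hz0 hg
  have e2 := sig_mul_left hw0 hc hg
  rw [← hw, e2, sig_disjoint hw0 hg (fun D h1 h2 => hwD D h2 h1),
    sig_disjoint hz0 hg (fun D h1 h2 => hz D h2 h1)] at e1
  linarith

omit [IsNoetherianRing R] in
theorem exists_unif (C : Curve R) (S : Finset (Curve R)) :
    ∃ π : R, π ≠ 0 ∧ ordC C π = 1 ∧ ∀ D ∈ S, D ≠ C → ordC D π = 0 ∧ π ∉ D.I := by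
  classical
  obtain ⟨ϖ, hϖ⟩ := IsDiscreteValuationRing.exists_irreducible C.loc
  obtain ⟨⟨x, s⟩, hxs⟩ := IsLocalization.surj C.I.primeCompl ϖ
  let J : Ideal R := (maximalIdeal C.loc ^ 2).comap (algebraMap R C.loc)
  have hxC : x ∈ C.I := by
    rw [← IsLocalization.AtPrime.to_map_mem_maximal_iff C.loc C.I x, ← hxs]
    exact Ideal.mul_mem_right _ _ ((mem_maximalIdeal _).mpr hϖ.not_isUnit)
  have hmax : maximalIdeal C.loc = Ideal.span {ϖ} :=
    (IsDiscreteValuationRing.irreducible_iff_uniformizer ϖ).mp hϖ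
  have hxJ : x ∉ J := by
    intro hx
    rw [Ideal.mem_comap, ← hxs, hmax, Ideal.span_singleton_pow, Ideal.mem_span_singleton] at hx
    obtain ⟨t, ht⟩ := hx
    have hu := IsLocalization.map_units C.loc s
    rw [pow_two, mul_assoc] at ht
    exact hϖ.not_isUnit (isUnit_of_mul_isUnit_left ((mul_left_cancel₀ hϖ.ne_zero ht) ▸ hu))
  let fam : Option (Curve R) → Ideal R := fun o => o.elim J Curve.I
  have hns : ¬ ((C.I : Set R) ⊆ ⋃ o ∈ (↑(insert none ((S.erase C).image some)) : Set (Option (Curve R))), (fam o : Set R)) := by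
    rw [Ideal.subset_union_prime none none]
    · rintro ⟨o, ho, hle⟩
      rcases Finset.mem_insert.mp ho with rfl | ho
      · exact hxJ (hle hxC)
      · obtain ⟨D, hD', rfl⟩ := Finset.mem_image.mp ho
        exact (Finset.mem_erase.mp hD').1 (Curve.eq_of_le hle).symm
    · intro o ho h _
      obtain ⟨D, hD', rfl⟩ := Finset.mem_image.mp ((Finset.mem_insert.mp ho).resolve_left h)
      exact D.prime
  obtain ⟨π, hπC, hπ⟩ := Set.not_subset.mp hns
  simp only [Set.mem_iUnion, Finset.mem_coe, SetLike.mem_coe, exists_prop, not_exists,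
    not_and] at hπ
  have hπJ : π ∉ J := hπ none (Finset.mem_insert_self _ _)
  have hπ0 : π ≠ 0 := fun h => hπJ (h ▸ J.zero_mem)
  refine ⟨π, hπ0, ?_, fun D hD' hDC => ?_⟩
  · obtain ⟨n, u, hu⟩ := IsDiscreteValuationRing.eq_unit_mul_pow_irreducible
      (loc_ne_zero C hπ0) hϖ
    have hn : n = 1 := by
      rcases n with _ | _ | n
      · rw [pow_zero, mul_one] at hu
        exact absurd hπC ((IsLocalization.AtPrime.isUnit_to_map_iff C.loc C.I π).mp
          (hu ▸ u.isUnit))
      · rfl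
      · exfalso; apply hπJ
        rw [Ideal.mem_comap, hu, hmax, Ideal.span_singleton_pow, Ideal.mem_span_singleton]
        exact Dvd.dvd.mul_left (pow_dvd_pow ϖ (by omega)) _
    have h := ordC_coe C hπ0
    rw [hu, hn, pow_one, IsDiscreteValuationRing.addVal_mul,
      IsDiscreteValuationRing.addVal_uniformizer hϖ,
      IsDiscreteValuationRing.addVal_eq_zero_of_unit, zero_add] at h
    exact_mod_cast h
  · have h := hπ (some D) (Finset.mem_insert_of_mem
      (Finset.mem_image_of_mem _ (Finset.mem_erase.mpr ⟨hDC, hD'⟩)))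
    exact ⟨ordC_eq_zero D h, h⟩

theorem mem_iff_ordC (C : Curve R) {x : R} (hx : x ≠ 0) : x ∈ C.I ↔ ordC C x ≠ 0 := by
  refine ⟨fun h h0 => ?_, mem_of_ordC_ne_zero C⟩
  obtain ⟨u, s, hu, hs, e⟩ := exists_rel C hx one_ne_zero
    (h0.trans (ordC_eq_zero C (one_notMem C)).symm)
  rw [one_mul] at e
  exact hu (e ▸ C.I.mul_mem_right s h)

theorem sig_unif (C : Curve R) {a b : R} (ha : a ≠ 0) (hb : b ≠ 0) (ha1 : ordC C a = 1)
    (hb1 : ordC C b = 1) (hab : ∀ D : Curve R, a ∈ D.I → b ∈ D.I → D = C) : sig a b = 0 := by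
  classical
  obtain ⟨c, hc, hc1, hcS⟩ := exists_unif C (curves ha ∪ curves hb)
  have hcA : ∀ D : Curve R, a ∈ D.I → D ≠ C → ordC D c = 0 ∧ c ∉ D.I := fun D h hne =>
    hcS D (Finset.mem_union_left _ ((mem_curves ha D).mpr h)) hne
  have hcB : ∀ D : Curve R, b ∈ D.I → D ≠ C → ordC D c = 0 ∧ c ∉ D.I := fun D h hne =>
    hcS D (Finset.mem_union_right _ ((mem_curves hb D).mpr h)) hne
  have h1 : sig a b = sig c b := sig_move ha hc hb fun D hD' => by
    by_cases hDC : D = C
    · rw [hDC, ha1, hc1]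
    · rw [(hcB D hD' hDC).1, ordC_eq_zero D (fun h => hDC (hab D h hD'))]
  have h2 : sig b c = sig a c := sig_move hb ha hc fun D hD' => by
    by_cases hDC : D = C
    · rw [hDC, ha1, hb1]
    · rw [ordC_eq_zero D (fun h => (hcB D h hDC).2 hD'),
        ordC_eq_zero D (fun h => (hcA D h hDC).2 hD')]
  have h3 : sig c a = sig b a := sig_move hc hb ha fun D hD' => by
    by_cases hDC : D = C
    · rw [hDC, hb1, hc1]
    · rw [(hcA D hD' hDC).1, ordC_eq_zero D (fun h => hDC (hab D hD' h))]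
  have s1 := sig_swap hb hc
  have s2 := sig_swap hc ha
  have s3 := sig_swap ha hb
  omega

theorem sig_one_left {g : R} (hg : g ≠ 0) : sig 1 g = 0 := by
  have := sig_mul_left (one_ne_zero : (1 : R) ≠ 0) one_ne_zero hg
  rw [one_mul] at this
  linarith

theorem sig_pow_left {f g : R} (hf : f ≠ 0) (hg : g ≠ 0) (n : ℕ) :
    sig (f ^ n) g = n * sig f g := by
  induction n with
  | zero => simp [sig_one_left hg]
  | succ n ih => rw [pow_succ, sig_mul_left (pow_ne_zero n hf) hf hg, ih]; push_cast; ring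

theorem sig_pow_unif (C : Curve R) {π g : R} (hπ : π ≠ 0) (hg : g ≠ 0) (h1 : ordC C π = 1)
    (h : ∀ D : Curve R, g ∈ D.I → D ≠ C → π ∉ D.I) : sig π g = 0 := by
  classical
  obtain ⟨ρ, hρ, hρ1, hρS⟩ := exists_unif C (curves hπ)
  have e : sig g π = sig (ρ ^ ordC C g) π := sig_move hg (pow_ne_zero _ hρ) hπ fun D hD' => by
    rw [ordC_pow D hρ]
    by_cases hDC : D = C
    · rw [hDC, hρ1, mul_one]
    · rw [(hρS D ((mem_curves hπ D).mpr hD') hDC).1, mul_zero,
        ordC_eq_zero D (fun hg' => h D hg' hDC hD')]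
  rw [sig_pow_left hρ hπ, sig_unif C hρ hπ hρ1 h1 (fun D hr hp => by
    by_contra hne
    exact (hρS D ((mem_curves hπ D).mpr hp) hne).2 hr), mul_zero] at e
  have := sig_swap hg hπ
  omega

/-- **Reciprocity**: the orders at the closed point of the tame symbols along all curves
add up to zero. -/
theorem sig_eq_zero {f g : R} (hf : f ≠ 0) (hg : g ≠ 0) : sig f g = 0 := by
  classical
  choose π hπ0 hπ1 hπS using fun C : Curve R => exists_unif C (curves hg)
  let F : Finset (Curve R) → R := fun S => ∏ C ∈ S, π C ^ ordC C f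
  have hF0 : ∀ S, F S ≠ 0 := fun S =>
    Finset.prod_ne_zero_iff.mpr fun C _ => pow_ne_zero _ (hπ0 C)
  have hord : ∀ S, S ⊆ curves hg → ∀ D ∈ curves hg,
      ordC D (F S) = if D ∈ S then ordC D f else 0 := by
    intro S
    induction S using Finset.induction_on with
    | empty => intro _ D _; simp [F, ordC_eq_zero D (one_notMem D)]
    | insert C S hCS ih =>
      intro hsub D hD'
      have hFi : F (insert C S) = π C ^ ordC C f * F S := Finset.prod_insert hCS
      rw [hFi, ordC_mul D (pow_ne_zero _ (hπ0 C)) (hF0 S), ordC_pow D (hπ0 C),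
        ih (fun x hx => hsub (Finset.mem_insert_of_mem hx)) D hD']
      by_cases hDC : D = C
      · subst hDC; simp [hπ1, hCS]
      · rw [(hπS C D hD' hDC).1]; simp [hDC]
  have hzero : ∀ S, sig (F S) g = 0 := by
    intro S
    induction S using Finset.induction_on with
    | empty => simp [F, sig_one_left hg]
    | insert C S hCS ih =>
      have hFi : F (insert C S) = π C ^ ordC C f * F S := Finset.prod_insert hCS
      rw [hFi, sig_mul_left (pow_ne_zero _ (hπ0 C)) (hF0 S) hg, ih, sig_pow_left (hπ0 C) hg,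
        sig_pow_unif C (hπ0 C) hg (hπ1 C) (fun D hD' hne =>
          (hπS C D ((mem_curves hg D).mpr hD') hne).2)]
      ring
  rw [sig_move hf (hF0 (curves hg)) hg (fun D hD' => by
    have hm := (mem_curves hg D).mpr hD'
    rw [hord _ subset_rfl D hm, if_pos hm])]
  exact hzero _

end Vale.Agent.P199.Recip
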